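import Vale.Agent.P146.Div.Spread.Window
import Vale.Agent.P146.Div.Assembly

/-!
No window of fixed width holds the free energy with probability bounded below, from the slopes and
the concentration of the pressure.
-/

noncomputable section

open MeasureTheory ProbabilityTheory Finset Filter
open scoped BigOperators Topology

namespace Vale.Agent.P146.Div.Spread

open Var

attribute [local instance] Interp.isProb

variable {n : ℕ}

/-- The pressure at one disorder. -/
def press (n : ℕ) (β : ℝ) (m : ℕ) (t : ℝ) (g : Cfg n) : ℝ :=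
  (1 / (n : ℝ)) * Real.log (∑ s : Fin n → Bool, Real.exp (tiltE β m t g s))

theorem mean_press (β : ℝ) (m : ℕ) (t : ℝ) : mean (press n β m t) = tiltP n β m t := by
  simp only [mean, press, tiltP, integral_const_mul]

theorem integrable_press (β : ℝ) (m : ℕ) (t : ℝ) : Integrable (press n β m t) (gauss (Edge n)) :=
  (integrable_logSum β m t).const_mul _

/-- The deviation of the pressure from its mean. -/
def pressDev (n : ℕ) (β : ℝ) (m : ℕ) (t : ℝ) : ℝ :=
  mean fun g : Cfg n => |press n β m t g - tiltP n β m t|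

/-- The field along one order, seen through the window. -/
def winTerm (β a w : ℝ) (m : ℕ) (g : Cfg n) : ℝ :=
  windowFn β a w g * (β * ∑ s : Fin n → Bool, gibbs β g s * bform m g s s - β * trU m g)

theorem tame_winTerm (β a w : ℝ) (m : ℕ) : Tame (winTerm (n := n) β a w m) :=
  (tame_windowFn β a w).mul ((Tame.const_mul β (Tame.sum _ fun s _ =>
    (Tame.gibbs β s).mul (tame_bform m s s))).sub (Tame.const_mul β (Tame.trU m)))

/-- One order, from a gap of the mean pressures. -/
theorem winTerm_ge (hn : n ≠ 0) {β : ℝ} (hβ : 0 ≤ β) (a w : ℝ) (m : ℕ) {t d : ℝ} (ht : 0 < t)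
    (hd : t * d ≤ tiltP n β m 0 - tiltP n β m (-t)) :
    2 * d * mean (windowFn (n := n) β a w) -
        ((pressDev n β m 0 + pressDev n β m (-t)) / (2 * t) +
          β / 4 * mean (fun g : Cfg n => |trU m g|)) ≤
      mean (winTerm (n := n) β a w m) := by
  have hnp : (0 : ℝ) < n := Nat.cast_pos.2 (Nat.pos_of_ne_zero hn)
  set u : Cfg n → ℝ := fun g => |press n β m 0 g - tiltP n β m 0| with hu
  set v : Cfg n → ℝ := fun g => |press n β m (-t) g - tiltP n β m (-t)| with hv
  have hpt : ∀ g : Cfg n, 2 * d * windowFn β a w g -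
      ((u g + v g) / (2 * t) + β / 4 * |trU m g|) ≤ winTerm β a w m g := by
    intro g
    obtain ⟨G, hG⟩ : ∃ G, G = ∑ s : Fin n → Bool, gibbs β g s * bform m g s s := ⟨_, rfl⟩
    have htan := logSum_tangent β m (-t) g
    have e : ∑ s : Fin n → Bool, gibbs β g s * (β / 2 * ((n : ℝ) * bform m g s s)) =
        n * (β / 2 * G) := by
      rw [hG, mul_sum, mul_sum]
      exact sum_congr rfl fun s _ => by ring
    rw [e] at htan
    have htan' : press n β m 0 g - press n β m (-t) g ≤ t * (β / 2 * G) := by
      have h := mul_le_mul_of_nonneg_left htan (show (0 : ℝ) ≤ 1 / n by positivity)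
      have e2 : (1 / (n : ℝ)) * (-t * (n * (β / 2 * G))) = -(t * (β / 2 * G)) := by field_simp
      simp only [press]
      linarith
    have h1 : 2 * d - (u g + v g) * (2 / t) ≤ β * G := by
      have h2 : t * d - (u g + v g) ≤ t * (β / 2 * G) := by
        have := abs_le.1 (le_refl (u g))
        have := abs_le.1 (le_refl (v g))
        simp only [hu, hv] at *
        linarith
      have h3 := mul_le_mul_of_nonneg_left h2 (show (0 : ℝ) ≤ 2 / t by positivity)
      have e3 : 2 / t * (t * d - (u g + v g)) = 2 * d - (u g + v g) * (2 / t) := by field_simp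
      have e4 : 2 / t * (t * (β / 2 * G)) = β * G := by field_simp
      linarith
    have hψ0 := windowFn_nonneg β a w g
    have hψ4 := windowFn_le β a w g
    have h4 : β * trU m g ≤ β * |trU m g| := mul_le_mul_of_nonneg_left (le_abs_self _) hβ
    have hr : 0 ≤ (u g + v g) * (2 / t) + β * |trU m g| := by
      simp only [hu, hv]; positivity
    unfold winTerm
    rw [← hG]
    calc 2 * d * windowFn β a w g - ((u g + v g) / (2 * t) + β / 4 * |trU m g|)
        = windowFn β a w g * (2 * d) - 1 / 4 * ((u g + v g) * (2 / t) + β * |trU m g|) := by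
          field_simp; ring
      _ ≤ windowFn β a w g * (2 * d) -
            windowFn β a w g * ((u g + v g) * (2 / t) + β * |trU m g|) := by
          have := mul_le_mul_of_nonneg_right hψ4 hr
          linarith
      _ ≤ windowFn β a w g * (β * G - β * trU m g) := by
          rw [← mul_sub]
          exact mul_le_mul_of_nonneg_left (by linarith) hψ0
  have i1 := (tame_windowFn (n := n) β a w).integrable.const_mul (2 * d)
  have iu : Integrable u (gauss (Edge n)) :=
    ((integrable_press β m 0).sub (integrable_const _)).abs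
  have iv : Integrable v (gauss (Edge n)) :=
    ((integrable_press β m (-t)).sub (integrable_const _)).abs
  have it := (Tame.trU (n := n) m).integrable.abs.const_mul (β / 4)
  have i2 : Integrable (fun g => (u g + v g) / (2 * t)) (gauss (Edge n)) :=
    (iu.add iv).div_const _
  have key : ∫ g, 2 * d * windowFn β a w g -
      ((u g + v g) / (2 * t) + β / 4 * |trU m g|) ∂gauss (Edge n) ≤
        ∫ g, winTerm β a w m g ∂gauss (Edge n) :=
    integral_mono (i1.sub (i2.add it)) (tame_winTerm β a w m).integrable hpt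
  rw [integral_sub i1 (i2.fun_add it), integral_add i2 it, integral_div, integral_add iu iv,
    integral_const_mul, integral_const_mul] at key
  simpa only [mean, pressDev] using key

/-- The second moment of the test function. -/
theorem test_sq_le (K : ℕ) (hH : 0 < ∑ k ∈ Icc 3 K, 1 / (k : ℝ)) :
    ∀ᶠ n : ℕ in atTop, mean (fun g : Cfg n => test K g ^ 2) ≤
      6 * ∑ k ∈ Icc 3 K, 1 / (k : ℝ) := by
  filter_upwards [(test_lead_tendsto K).eventually_le_const
      (show 2 * (∑ k ∈ Icc 3 K, 1 / (k : ℝ)) < 3 * ∑ k ∈ Icc 3 K, 1 / (k : ℝ) by linarith),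
    (negl_testRem K).2.eventually_le_const hH, eventually_ne_atTop 0] with n hlead hrem hn
  have hm := mean_test hn K
  simp only [mean] at hm hlead hrem ⊢
  have e : ∀ g : Cfg n, test K g ^ 2 = test K g * lead K g - test K g * testRem K g -
      (∑ k ∈ Icc 3 K, 1 / (k : ℝ) * cst (k - 1)) * test K g := fun g => by
    rw [sq]
    nth_rw 2 [test_eq hn K g]
    ring
  have hT := (tame_test (n := n) K)
  have hpt : ∀ g : Cfg n, -(test K g * testRem K g) ≤
      1 / 4 * test K g ^ 2 + testRem K g ^ 2 := fun g => by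
    nlinarith [sq_nonneg (1 / 2 * test K g + testRem K g)]
  have h2 := integral_mono (hT.mul (tame_testRem K)).integrable.neg
    ((Tame.const_mul (1 / 4) (hT.pow 2)).add ((tame_testRem K).pow 2)).integrable hpt
  rw [integral_add (Tame.const_mul _ (hT.pow 2)).integrable ((tame_testRem K).pow 2).integrable,
    integral_const_mul, Pi.neg_def, integral_neg] at h2
  have h1 : ∫ g, test K g ^ 2 ∂gauss (Edge n) = (∫ g, test K g * lead K g ∂gauss (Edge n)) -
      ∫ g, test K g * testRem K g ∂gauss (Edge n) := by
    simp only [e]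
    rw [integral_sub ((hT.mul (tame_lead K)).sub (hT.mul (tame_testRem K))).integrable
        (Tame.const_mul _ hT).integrable,
      integral_sub (hT.mul (tame_lead K)).integrable (hT.mul (tame_testRem K)).integrable,
      integral_const_mul, hm, mul_zero, sub_zero]
  linarith

/-- The mean absolute normalised trace vanishes. -/
theorem trU_abs_tendsto {m : ℕ} (hm : m ≠ 0) :
    Tendsto (fun n => mean fun g : Cfg n => |trU m g|) atTop (𝓝 0) := by
  rw [Metric.tendsto_nhds]
  intro e he
  filter_upwards [(negl_trC m).2.eventually_le_const (show (0 : ℝ) < e ^ 2 / 4 by positivity)]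
    with n hn
  have h0 : 0 ≤ mean fun g : Cfg n => |trU m g| := integral_nonneg fun g => abs_nonneg _
  rw [Real.dist_eq, sub_zero, abs_of_nonneg h0]
  have e1 : ∀ g : Cfg n, trC m g = trU m g := fun g => by simp [trC, hm]
  simp only [mean, e1] at hn ⊢
  have hpt : ∀ g : Cfg n, |trU m g| ≤ e / 4 + 1 / e * trU m g ^ 2 := fun g => by
    have h : 0 ≤ (|trU m g| - e / 2) ^ 2 / e := by positivity
    have e2 : (|trU m g| - e / 2) ^ 2 / e = e / 4 + 1 / e * trU m g ^ 2 - |trU m g| := by
      rw [← sq_abs (trU m g)]; field_simp; ring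
    linarith
  have h := integral_mono (Tame.trU (n := n) m).integrable.abs
    ((Tame.const (e / 4)).add (Tame.const_mul (1 / e) ((Tame.trU m).pow 2))).integrable hpt
  rw [integral_add (integrable_const _) (Tame.const_mul _ ((Tame.trU m).pow 2)).integrable,
    integral_const_mul, integral_const, probReal_univ, one_smul] at h
  have h3 : 1 / e * ∫ g, trU m g ^ 2 ∂gauss (Edge n) ≤ e / 4 :=
    (mul_le_mul_of_nonneg_left hn (by positivity)).trans_eq (by field_simp)
  linarith

/-- The probability of a window is at most a multiple of the mean of the smooth window. -/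
theorem prob_le_window (β a : ℝ) {w : ℝ} (hw : 0 < w) :
    (disorder n).real {x | |freeEnergy n β x - a| ≤ w} ≤
      16 * mean (windowFn (n := n) β a w) := by
  have hmap : Measurable fun (g : Cfg n) (p : Pair n) => g s(p.1.1, p.1.2) :=
    measurable_pi_lambda _ fun p => measurable_pi_apply _
  have hF : Continuous (freeEnergy n β) := by
    unfold freeEnergy hamiltonian
    exact Continuous.log (by fun_prop) fun g =>
      (Finset.sum_pos (fun s _ => Real.exp_pos _) Finset.univ_nonempty).ne'
  have hS : MeasurableSet {x | |freeEnergy n β x - a| ≤ w} :=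
    (isClosed_le (continuous_abs.comp (hF.sub continuous_const)) continuous_const).measurableSet
  rw [← disorder_map n, map_measureReal_apply hmap hS, mean, ← integral_const_mul]
  rw [← integral_indicator_one (hmap hS)]
  refine integral_mono ((integrable_const _).indicator (hmap hS))
    ((tame_windowFn β a w).integrable.const_mul 16) fun g => ?_
  by_cases hg : g ∈ (fun (g : Cfg n) (p : Pair n) => g s(p.1.1, p.1.2)) ⁻¹'
      {x | |freeEnergy n β x - a| ≤ w}
  · rw [Set.indicator_of_mem hg]
    have := windowFn_ge β a hw g hg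
    simp only [Pi.one_apply]
    linarith
  · rw [Set.indicator_of_notMem hg]
    have := windowFn_nonneg β a w g
    positivity

/-- No window of fixed width keeps the free energy. -/
theorem spread_of (hM : MinStmt) (hL : LowerStmt) (hU : UpperStmt)
    (hdev : ∀ (β : ℝ) (m : ℕ) (t : ℝ), Tendsto (fun n => pressDev n β m t) atTop (𝓝 0))
    {β : ℝ} (hβ : 1 < β) {w : ℝ} (hw : 0 < w) {η : ℝ} (hη : 0 < η) :
    ∀ᶠ n : ℕ in atTop, ∀ a : ℝ, (disorder n).real {x | |freeEnergy n β x - a| ≤ w} ≤ η := by
  have hβ0 : 0 ≤ β := by linarith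
  obtain ⟨J, hJ⟩ := Filter.eventually_atTop.1
    (Real.tendsto_sum_range_one_div_nat_succ_atTop.eventually_ge_atTop ((128 * w / η) ^ 2 + 3))
  obtain ⟨H, hH⟩ : ∃ H, H = ∑ k ∈ Icc 3 (J + 2), 1 / (k : ℝ) := ⟨_, rfl⟩
  have hHbig : (128 * w / η) ^ 2 + 1 ≤ H := by
    have h1 := hJ (J + 2) (Nat.le_add_right _ _)
    have e1 : H = ∑ i ∈ range J, 1 / (((2 + i : ℕ) : ℝ) + 1) := by
      rw [hH, ← Finset.Ico_add_one_right_eq_Icc, Finset.sum_Ico_eq_sum_range,
        show J + 2 + 1 - 3 = J by omega]
      exact Finset.sum_congr rfl fun i _ => by push_cast; ring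
    rw [add_comm J 2, Finset.sum_range_add, ← e1] at h1
    have e3 : ∑ i ∈ range 2, 1 / ((i : ℝ) + 1) = 3 / 2 := by norm_num [Finset.sum_range_succ]
    rw [e3] at h1
    linarith
  have hH0 : 0 < H := by linarith [sq_nonneg (128 * w / η)]
  obtain ⟨c, hc⟩ : ∃ c, c = Real.sqrt H := ⟨_, rfl⟩
  have hc0 : 0 < c := hc ▸ Real.sqrt_pos.2 hH0
  have hcc : c * c = H := hc ▸ Real.mul_self_sqrt hH0.le
  have hwc : 128 * w ≤ η * c := by
    have h : 128 * w / η ≤ c := by
      rw [hc, ← Real.sqrt_sq (show (0 : ℝ) ≤ 128 * w / η by positivity)]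
      exact Real.sqrt_le_sqrt (by linarith)
    rwa [div_le_iff₀ hη, mul_comm c η] at h
  -- the gaps, order by order
  have hgap : ∀ k ∈ Icc 3 (J + 2), ∃ t > 0, ∀ᶠ n : ℕ in atTop,
      t * (1 / 2 - 1 / 16) ≤ tiltP n β (k - 1) 0 - tiltP n β (k - 1) (-t) := fun k hk =>
    gap_ge hM hL hU hβ (k - 1) (by have := (mem_Icc.1 hk).1; omega) (by norm_num)
  choose! T hT0 hTev using hgap
  obtain ⟨ρ, hρ⟩ : ∃ ρ : ℕ → ℝ, ρ = fun n => ∑ k ∈ Icc 3 (J + 2), 1 / (k : ℝ) *
      ((pressDev n β (k - 1) 0 + pressDev n β (k - 1) (-T k)) / (2 * T k) +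
        β / 4 * mean (fun g : Cfg n => |trU (k - 1) g|)) := ⟨_, rfl⟩
  have hρ0 : Tendsto ρ atTop (𝓝 0) := by
    rw [hρ]
    simpa using tendsto_finsetSum (Icc 3 (J + 2)) fun k hk =>
      ((((hdev β (k - 1) 0).add (hdev β (k - 1) (-T k))).div_const (2 * T k)).add
        ((trU_abs_tendsto (m := k - 1) (by have := (mem_Icc.1 hk).1; omega)).const_mul
          (β / 4))).const_mul (1 / (k : ℝ))
  filter_upwards [(eventually_all_finset _).2 hTev, test_sq_le (J + 2) (hH ▸ hH0),
    hρ0.eventually_le_const (show (0 : ℝ) < w * c / 4 by positivity), eventually_ne_atTop 0]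
    with n hgap htest hrho hn a
  obtain ⟨E, hE⟩ : ∃ E, E = mean (windowFn (n := n) β a w) := ⟨_, rfl⟩
  have hlow : 7 / 8 * H * E - ρ n ≤ w * mean (fun g : Cfg n => test (J + 2) g * stepFn β a w g) := by
    rw [mean_test_mul (J + 2) (tame_stepFn β a w), hH, hρ]
    simp only [mul_sum, sum_mul]
    rw [← sum_sub_distrib]
    refine sum_le_sum fun k hk => ?_
    have h := winTerm_ge hn hβ0 a w (k - 1) (hT0 k hk) (hgap k hk)
    rw [mean_psi_step hn β a w (k - 1)]
    have hk0 : (0 : ℝ) ≤ 1 / (k : ℝ) := by positivity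
    have h' := mul_le_mul_of_nonneg_left h hk0
    rw [← hE] at h'
    have e : ∀ X : ℝ, w * (1 / (k : ℝ) * (1 / w * X)) = 1 / (k : ℝ) * X := fun X => by field_simp
    rw [e]
    refine le_trans (le_of_eq ?_) h'
    ring
  have hup : mean (fun g : Cfg n => test (J + 2) g * stepFn β a w g) ≤ 7 / 2 * c := by
    have hpt : ∀ g : Cfg n, test (J + 2) g * stepFn β a w g ≤
        1 / (2 * c) * test (J + 2) g ^ 2 + c / 2 := by
      intro g
      have hs := stepFn_mem β a w g
      have h1 : test (J + 2) g * stepFn β a w g ≤ |test (J + 2) g| :=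
        (le_abs_self _).trans (by
          rw [abs_mul, abs_of_nonneg hs.1]; exact mul_le_of_le_one_right (abs_nonneg _) hs.2)
      have h2 : 0 ≤ (|test (J + 2) g| - c) ^ 2 / (2 * c) := by positivity
      have e2 : (|test (J + 2) g| - c) ^ 2 / (2 * c) =
          1 / (2 * c) * test (J + 2) g ^ 2 + c / 2 - |test (J + 2) g| := by
        rw [← sq_abs (test (J + 2) g)]; field_simp; ring
      linarith
    have h := integral_mono ((tame_test (n := n) (J + 2)).mul (tame_stepFn β a w)).integrable
      ((Tame.const_mul (1 / (2 * c)) ((tame_test (J + 2)).pow 2)).add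
        (Tame.const (c / 2))).integrable hpt
    rw [integral_add (Tame.const_mul _ ((tame_test (J + 2)).pow 2)).integrable (integrable_const _),
      integral_const_mul, integral_const, probReal_univ, one_smul] at h
    simp only [mean] at htest ⊢
    rw [← hH] at htest
    refine h.trans ?_
    have h3 := mul_le_mul_of_nonneg_left htest (show (0 : ℝ) ≤ 1 / (2 * c) by positivity)
    have e3 : 1 / (2 * c) * (6 * H) = 3 * c := by rw [← hcc]; field_simp; ring
    linarith
  refine (prob_le_window β a hw).trans ?_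
  rw [← hE]
  have h1 : 7 / 8 * (c * c) * E ≤ w * (7 / 2 * c) + w * c / 4 := by
    rw [hcc]
    linarith [mul_le_mul_of_nonneg_left hup hw.le]
  have h2 : c * (7 / 8 * c * E) ≤ c * (15 / 4 * w) := by linarith
  have h3 : c * (16 * E) ≤ c * η := by
    have := le_of_mul_le_mul_left h2 hc0
    linarith
  exact le_of_mul_le_mul_left h3 hc0

end Vale.Agent.P146.Div.Spread
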