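import Vale.Agent.P146.Div.Guerra.Tame
import Vale.Agent.P146.Div.Guerra.Spins
import Vale.Agent.P146.Interp
import Vale.Agent.P146.Div.Pressure
import Vale.Agent.P146.Div.Rec.Forms
import Vale.Agent.P146.Div.Var.Limit

/-!
The random pressure of the tilted model concentrates around its mean.
-/

noncomputable section

open MeasureTheory ProbabilityTheory Filter
open scoped BigOperators Topology

namespace Vale.Agent.P146.Div.Spread

attribute [local instance] Interp.isProb

variable {n : ℕ}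

/-- The pressure of the tilted model at fixed disorder. -/
def pressureAt (n : ℕ) (β : ℝ) (m : ℕ) (t : ℝ) (g : Cfg n) : ℝ :=
  (1 / (n : ℝ)) * Real.log (∑ s : Fin n → Bool, Real.exp (tiltE β m t g s))

section LogSum

variable {ι X : Type*} [Fintype ι] [DecidableEq ι] [Fintype X] [Nonempty X]
  {H : X → (ι → ℝ) → ℝ}

lemma pd_logSum (hH : ∀ x, Tame (H x)) (e : ι) :
    pd e (fun g => Real.log (∑ x, Real.exp (H x g))) =
      fun g => ∑ x, Guerra.sm H x g * pd e (H x) g := by
  funext g
  have hd : ∀ y, HasFDerivAt (H y) (fderiv ℝ (H y) g) g := fun y =>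
    (differentiable_of_smooth (hH y).1 g).hasFDerivAt
  have h := (HasFDerivAt.fun_sum (u := Finset.univ) fun y _ => (hd y).exp).log
    (Guerra.sm_den_pos H g).ne'
  show fderiv ℝ _ g (Pi.single e 1) = _
  rw [h.fderiv]
  simp only [smul_apply, FunLike.coe_sum, Finset.sum_apply, smul_eq_mul,
    pd, Guerra.sm, Finset.mul_sum]
  exact Finset.sum_congr rfl fun x _ => by ring

lemma tame_logSum (hH : ∀ x, Tame (H x)) :
    Tame (fun g => Real.log (∑ x, Real.exp (H x g))) := by
  refine ⟨(ContDiff.sum fun x _ => (hH x).1.exp).log fun g => (Guerra.sm_den_pos H g).ne',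
    fun L => ?_⟩
  cases L with
  | nil =>
    obtain ⟨C, p, hC⟩ := (Tame.add (Tame.const (Real.log (Fintype.card X)))
      (Tame.sum Finset.univ fun x _ => Tame.add (Tame.const 1)
        (Tame.mul (hH x) (hH x)))).polyBd []
    refine ⟨C, p, fun g => le_trans ?_ (hC g)⟩
    refine (abs_log_sum_exp_le fun x => H x g).trans (le_trans ?_ (le_abs_self _))
    refine add_le_add le_rfl (Finset.sum_le_sum fun x _ => ?_)
    rcases abs_cases (H x g) with ⟨h, -⟩ | ⟨h, -⟩ <;> rw [h] <;>
      nlinarith [sq_nonneg (H x g - 1), sq_nonneg (H x g + 1)]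
  | cons e L =>
    have h : Guerra.SPoly H (pd e fun g => Real.log (∑ x, Real.exp (H x g))) := by
      rw [pd_logSum hH]
      exact Guerra.SPoly.sum Finset.univ fun x _ => .mul (.weight x) (.coef ((hH x).pd e))
    exact (h.pdL hH L).polyBd

lemma sum_sq_pd_logSum_le (hH : ∀ x, Tame (H x)) (g : ι → ℝ) {B : ℝ}
    (hB : ∀ x, ∑ e, pd e (H x) g ^ 2 ≤ B) :
    ∑ e, pd e (fun g => Real.log (∑ x, Real.exp (H x g))) g ^ 2 ≤ B := by
  calc ∑ e, pd e (fun g => Real.log (∑ x, Real.exp (H x g))) g ^ 2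
      ≤ ∑ e, ∑ x, Guerra.sm H x g * pd e (H x) g ^ 2 := by
        refine Finset.sum_le_sum fun e _ => ?_
        rw [pd_logSum hH]
        have := Finset.sum_sq_le_sum_mul_sum_of_sq_le_mul Finset.univ
          (fun x _ => Guerra.sm_nonneg H x g)
          (fun x _ => mul_nonneg (Guerra.sm_nonneg H x g) (sq_nonneg (pd e (H x) g)))
          (r := fun x => Guerra.sm H x g * pd e (H x) g) (fun x _ => le_of_eq (by ring))
        rwa [Guerra.sum_sm, one_mul] at this
    _ = ∑ x, Guerra.sm H x g * ∑ e, pd e (H x) g ^ 2 := by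
        simp only [Finset.mul_sum]; exact Finset.sum_comm
    _ ≤ ∑ x, Guerra.sm H x g * B :=
        Finset.sum_le_sum fun x _ => mul_le_mul_of_nonneg_left (hB x) (Guerra.sm_nonneg H x g)
    _ = B := by rw [← Finset.sum_mul, Guerra.sum_sm, one_mul]

end LogSum

/-- The pressure is tame. -/
theorem tame_pressureAt (β : ℝ) (m : ℕ) (t : ℝ) : Tame (pressureAt n β m t) :=
  Tame.const_mul _ (tame_logSum (H := fun s g => tiltE β m t g s) (tame_tiltE β m t))

lemma tiltP_eq (β : ℝ) (m : ℕ) (t : ℝ) : tiltP n β m t = mean (pressureAt n β m t) := by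
  simp only [tiltP, mean, pressureAt, integral_const_mul]

lemma sum_sq_dEnergy_le (hn : n ≠ 0) (s : Fin n → Bool) :
    ∑ e, dEnergy s e ^ 2 ≤ n := by
  have h := Guerra.dirE_energy hn (0 : Cfg n) s s
  simp only [Guerra.dirE, Guerra.pd_energy, ← sq] at h
  rw [Guerra.bform_zero_self hn] at h
  rw [h]
  have : (0 : ℝ) ≤ n := Nat.cast_nonneg n
  nlinarith

lemma gradSq_bform_le (hn : n ≠ 0) {m : ℕ} {g : Cfg n} {M τ : ℝ}
    (h : Rec.FormBd (2 * m) g M τ) (s : Fin n → Bool) :
    gradSq (fun g => bform m g s s) g ≤ 4 * (m : ℝ) ^ 2 * ((2 * m + 1) * M) ^ 2 / n := by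
  have hn' : (0 : ℝ) < n := by exact_mod_cast Nat.pos_of_ne_zero hn
  set X : ℕ → Fin n → ℝ := fun i => Rec.uVec i g s
  set B := (n : ℝ) * ((2 * m + 1) * M) with hB
  have hX : ∀ i ≤ m, ∑ c, X i c ^ 2 ≤ B := fun i hi => by
    have := (abs_le.1 (Rec.abs_sum_uVec_mul_le (i := i) (j := i) (by omega) h s s)).2
    simp only [sq, X, hB]
    push_cast at this
    linarith
  refine (gradSq_le hn _ g).trans (div_le_div_of_nonneg_right ?_ hn'.le)
  have hpt : ∀ c d : Fin n, Dab (c, d) (fun g => bform m g s s) g ^ 2 ≤ ((m : ℝ) / n ^ 2) *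
      ∑ i ∈ Finset.range m, 2 * (X i c ^ 2 * X (m - 1 - i) d ^ 2 +
        X i d ^ 2 * X (m - 1 - i) c ^ 2) := by
    intro c d
    rw [Rec.Dab_bform, div_pow, div_mul_eq_mul_div]
    refine div_le_div_of_nonneg_right (sq_sum_le_card_mul_sum_sq.trans ?_) (sq_nonneg _)
    rw [Finset.card_range]
    refine mul_le_mul_of_nonneg_left (Finset.sum_le_sum fun i _ => ?_) (Nat.cast_nonneg m)
    refine (add_sq_le).trans (le_of_eq ?_)
    simp only [X]; ring
  calc ∑ c, ∑ d, Dab (c, d) (fun g => bform m g s s) g ^ 2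
      ≤ ∑ c, ∑ d, ((m : ℝ) / n ^ 2) * ∑ i ∈ Finset.range m,
          2 * (X i c ^ 2 * X (m - 1 - i) d ^ 2 + X i d ^ 2 * X (m - 1 - i) c ^ 2) :=
        Finset.sum_le_sum fun c _ => Finset.sum_le_sum fun d _ => hpt c d
    _ = ((m : ℝ) / n ^ 2) * ∑ i ∈ Finset.range m,
          4 * ((∑ c, X i c ^ 2) * ∑ d, X (m - 1 - i) d ^ 2) := by
        have e : ∀ i, 4 * ((∑ c, X i c ^ 2) * ∑ d, X (m - 1 - i) d ^ 2) = ∑ c, ∑ d,
            2 * (X i c ^ 2 * X (m - 1 - i) d ^ 2 + X i d ^ 2 * X (m - 1 - i) c ^ 2) := fun i => by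
          simp only [← Finset.mul_sum, Finset.sum_add_distrib]
          rw [Finset.sum_comm (f := fun c d => X i d ^ 2 * X (m - 1 - i) c ^ 2)]
          simp only [← Finset.mul_sum, ← Finset.sum_mul]
          ring
        rw [Finset.sum_congr rfl fun i _ => e i]
        simp only [Finset.mul_sum]
        exact Finset.sum_comm_cycle
    _ ≤ ((m : ℝ) / n ^ 2) * ∑ i ∈ Finset.range m, 4 * (B * B) := by
        refine mul_le_mul_of_nonneg_left (Finset.sum_le_sum fun i hi => ?_) (by positivity)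
        have hi' := Finset.mem_range.1 hi
        have hB0 : 0 ≤ B := by
          have := h.one_le; positivity
        exact mul_le_mul_of_nonneg_left (mul_le_mul (hX i hi'.le) (hX _ (by omega))
          (Finset.sum_nonneg fun d _ => sq_nonneg _) hB0) (by norm_num)
    _ = 4 * (m : ℝ) ^ 2 * ((2 * m + 1) * M) ^ 2 := by
        simp only [Finset.sum_const, Finset.card_range, nsmul_eq_mul, hB]
        field_simp

/-- The constant in the gradient bound. -/
def gradConst (β : ℝ) (m : ℕ) (t : ℝ) : ℝ :=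
  2 * β ^ 2 + 2 * (t * β) ^ 2 * (m : ℝ) ^ 2 * (2 * m + 1) ^ 2

lemma gradConst_nonneg (β : ℝ) (m : ℕ) (t : ℝ) : 0 ≤ gradConst β m t := by
  unfold gradConst; positivity

lemma gradSq_pressureAt_le (hn : n ≠ 0) (β : ℝ) {m : ℕ} (t : ℝ) {g : Cfg n} {M τ : ℝ}
    (h : Rec.FormBd (2 * m) g M τ) :
    gradSq (pressureAt n β m t) g ≤ gradConst β m t * M ^ 2 / n := by
  have hn' : (0 : ℝ) < n := by exact_mod_cast Nat.pos_of_ne_zero hn
  have hL := tame_logSum (H := fun s g => tiltE β m t g s) (tame_tiltE (n := n) β m t)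
  have hs : ∀ s : Fin n → Bool, ∑ e, pd e (fun g => tiltE β m t g s) g ^ 2 ≤
      (n : ℝ) * (gradConst β m t * M ^ 2) := by
    intro s
    have hb := gradSq_bform_le hn h s
    have he := sum_sq_dEnergy_le hn s
    have hpd : ∀ e, pd e (fun g => tiltE β m t g s) g =
        β * dEnergy s e + t * (β / 2) * n * pd e (fun g => bform m g s s) g := by
      intro e
      unfold tiltE
      rw [pd_add _ (Tame.const_mul _ (tame_energy s))
          (Tame.const_mul _ (Tame.const_mul _ (tame_bform m s s))),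
        pd_const_mul _ _ (tame_energy s),
        pd_const_mul _ _ (Tame.const_mul _ (tame_bform m s s)),
        pd_const_mul _ _ (tame_bform m s s), Guerra.pd_energy]
      ring
    calc ∑ e, pd e (fun g => tiltE β m t g s) g ^ 2
        ≤ ∑ e, (2 * β ^ 2 * dEnergy s e ^ 2 +
            2 * (t * (β / 2) * n) ^ 2 * pd e (fun g => bform m g s s) g ^ 2) :=
          Finset.sum_le_sum fun e _ => by
            rw [hpd]; exact (add_sq_le).trans (le_of_eq (by ring))
      _ = 2 * β ^ 2 * (∑ e, dEnergy s e ^ 2) +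
            2 * (t * (β / 2) * n) ^ 2 * gradSq (fun g => bform m g s s) g := by
          rw [Finset.sum_add_distrib, ← Finset.mul_sum, ← Finset.mul_sum]; rfl
      _ ≤ 2 * β ^ 2 * ((n : ℝ) * M ^ 2) +
            2 * (t * (β / 2) * n) ^ 2 * (4 * (m : ℝ) ^ 2 * ((2 * m + 1) * M) ^ 2 / n) := by
          refine add_le_add (mul_le_mul_of_nonneg_left (he.trans ?_) (by positivity))
            (mul_le_mul_of_nonneg_left hb (by positivity))
          exact le_mul_of_one_le_right hn'.le (one_le_pow₀ h.one_le)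
      _ = _ := by unfold gradConst; field_simp; ring
  calc gradSq (pressureAt n β m t) g
      = (1 / (n : ℝ)) ^ 2 * ∑ e, pd e
          (fun g : Cfg n => Real.log (∑ s : Fin n → Bool, Real.exp (tiltE β m t g s))) g ^ 2 := by
        rw [gradSq, Finset.mul_sum]
        refine Finset.sum_congr rfl fun e _ => ?_
        unfold pressureAt
        rw [pd_const_mul _ _ hL, mul_pow]
    _ ≤ (1 / (n : ℝ)) ^ 2 * ((n : ℝ) * (gradConst β m t * M ^ 2)) :=
        mul_le_mul_of_nonneg_left
          (sum_sq_pd_logSum_le (H := fun s g => tiltE β m t g s) (tame_tiltE β m t) g hs)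
          (sq_nonneg _)
    _ = _ := by field_simp

lemma mean_gradSq_le {K : ℕ} (hB : Big 0 n K) (β : ℝ) {m : ℕ} (hm : 2 * m ≤ K) (t : ℝ) :
    mean (gradSq (pressureAt n β m t)) ≤
      gradConst β m t * (4 * ((K : ℝ) + 1) ^ 2 + 1) / n := by
  have hn1 : (0 : ℝ) < n := by have := big_pos hB; linarith [this.1, this.2]
  have hn : n ≠ 0 := by rintro rfl; simp at hn1
  have hc := gradConst_nonneg β m t
  have h := mean_le_of_good (f := gradSq (pressureAt n β m t)) (q := 2 * m * 2)
    (A := gradConst β m t * (2 * ((K : ℝ) + 1)) ^ 2 / n) (B := gradConst β m t / n) hB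
    (tame_pressureAt β m t).gradSq (by omega) (by positivity) (by positivity)
    (fun g hg => by
      rw [abs_of_nonneg (gradSq_nonneg _ _)]
      exact gradSq_pressureAt_le hn β t (Rec.formBd_good hg hm))
    (fun g => by
      rw [abs_of_nonneg (gradSq_nonneg _ _), pow_mul, div_mul_eq_mul_div]
      exact gradSq_pressureAt_le hn β t (Rec.formBd_crude (2 * m) g))
  have hp : ((n : ℝ) ^ (2 * K))⁻¹ ≤ 1 := inv_le_one_of_one_le₀
    (one_le_pow₀ (by exact_mod_cast Nat.pos_of_ne_zero hn))
  refine (le_abs_self _).trans (h.trans ?_)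
  refine (add_le_add le_rfl (mul_le_of_le_one_right (by positivity) hp)).trans (le_of_eq ?_)
  ring

/-- The pressure concentrates around its mean. -/
theorem pressureAt_dev (β : ℝ) (m : ℕ) (t : ℝ) :
    Tendsto (fun n : ℕ => mean (fun g : Cfg n => |pressureAt n β m t g - tiltP n β m t|))
      atTop (𝓝 0) := by
  set K := 2 * m + 2
  set C := gradConst β m t * (4 * ((K : ℝ) + 1) ^ 2 + 1)
  have hlim : Tendsto (fun n : ℕ => ((5 * C + 1) / 2) / Real.sqrt n) atTop (𝓝 0) :=
    tendsto_const_nhds.div_atTop (Real.tendsto_sqrt_atTop.comp tendsto_natCast_atTop_atTop)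
  refine squeeze_zero' (.of_forall fun n => integral_nonneg fun g => abs_nonneg _) ?_ hlim
  filter_upwards [Var.eventually_big K (by omega), eventually_ne_atTop 0] with n hB hn
  have hn1 : (0 : ℝ) < n := by exact_mod_cast Nat.pos_of_ne_zero hn
  set r := Real.sqrt n with hr
  have hr0 : 0 < r := Real.sqrt_pos.2 hn1
  have hrr : r * r = n := Real.mul_self_sqrt hn1.le
  set f := pressureAt n β m t
  have hf : Tame f := tame_pressureAt β m t
  set a := tiltP n β m t with ha
  have ha' : a = ∫ g, f g ∂gauss (Edge n) := tiltP_eq β m t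
  have hd : Tame (fun g => (f g - a) ^ 2) := (hf.sub (Tame.const a)).pow 2
  have hvar : ∫ g, (f g - a) ^ 2 ∂gauss (Edge n) ≤ 5 * (C / n) := by
    have h := gauss_moment hf 1
    simp only [mul_one, pow_one, Nat.cast_one, ← ha'] at h
    exact h.trans (mul_le_mul_of_nonneg_left (mean_gradSq_le hB β (by omega) t) (by norm_num))
  have hpt : ∀ g, |f g - a| ≤ r / 2 * (f g - a) ^ 2 + 1 / (2 * r) := fun g => by
    rw [← sub_nonneg]
    have e : r / 2 * (f g - a) ^ 2 + 1 / (2 * r) - |f g - a| =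
        (r * |f g - a| - 1) ^ 2 / (2 * r) := by
      rw [← sq_abs (f g - a)]; field_simp; ring
    rw [e]; positivity
  show ∫ g, |f g - a| ∂gauss (Edge n) ≤ _
  calc ∫ g, |f g - a| ∂gauss (Edge n)
      ≤ ∫ g, (r / 2 * (f g - a) ^ 2 + 1 / (2 * r)) ∂gauss (Edge n) :=
        integral_mono (hf.sub (Tame.const a)).integrable.abs
          ((hd.integrable.const_mul _).add (integrable_const _)) hpt
    _ = r / 2 * (∫ g, (f g - a) ^ 2 ∂gauss (Edge n)) + 1 / (2 * r) := by
        rw [integral_add (hd.integrable.const_mul _) (integrable_const _), integral_const_mul,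
          integral_const, probReal_univ, one_smul]
    _ ≤ r / 2 * (5 * (C / n)) + 1 / (2 * r) :=
        add_le_add (mul_le_mul_of_nonneg_left hvar (by positivity)) le_rfl
    _ = _ := by rw [← hrr]; field_simp

end Vale.Agent.P146.Div.Spread
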