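import Vale.Agent.P146.Div.Spread.Bound
import Vale.Agent.P146.Div.Spread.Pressure
import Vale.Agent.P146.Div.Main

/-!
Above the critical inverse temperature the free energy leaves every window of fixed width in
probability, whatever the centring.
-/

namespace Vale.Agent.P146.Div.Spread

open MeasureTheory ProbabilityTheory Filter

/-- The probability of every window of fixed width tends to zero, uniformly in its centre. -/
theorem spread {β : ℝ} (hβ : 1 < β) (L η : ℝ) (hη : 0 < η) :
    ∀ᶠ n : ℕ in atTop, ∀ a : ℝ,
      (disorder n).real {g | |freeEnergy n β g - a| ≤ L} ≤ η := by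
  have hw : 0 < max L 1 := lt_of_lt_of_le one_pos (le_max_right _ _)
  filter_upwards [spread_of (marginal shapeBase shapeStep (simpson shapeStep)) lower
    (upper shapeLimit fieldLimit (Rec.recursion shapeLimit kernel))
    (fun β m t => pressureAt_dev β m t) hβ hw hη] with n hn a
  haveI : IsProbabilityMeasure (disorder n) := by unfold disorder; infer_instance
  exact (measureReal_mono fun g hg => le_trans (show |freeEnergy n β g - a| ≤ L from hg)
    (le_max_left _ _)).trans (hn a)

end Vale.Agent.P146.Div.Spread
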