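import Vale.Agent.P146.Div.Var
import Vale.Agent.P146.Div.Pressure
import Vale.Agent.P146.Div.Guerra.Tame

/-!
A smooth window for the free energy and the divergence identity against it.
-/

noncomputable section

open MeasureTheory ProbabilityTheory Finset
open scoped BigOperators

namespace Vale.Agent.P146.Div.Spread

open Var Guerra

attribute [local instance] Interp.isProb

variable {n : ℕ}

/-- The two log-weights of the smoothed step at `a` of width `w`. -/
def stepH (β a w : ℝ) (b : Bool) (g : Cfg n) : ℝ :=
  if b then (1 / w) * (Fen β g - a) else 0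

/-- The smoothed indicator of free energies above `a`. -/
def stepFn (β a w : ℝ) (g : Cfg n) : ℝ := sm (stepH β a w) true g

/-- Its window. -/
def windowFn (β a w : ℝ) (g : Cfg n) : ℝ := stepFn β a w g * (1 - stepFn β a w g)

theorem tame_stepH (β a w : ℝ) (b : Bool) : Tame (stepH (n := n) β a w b) := by
  cases b
  · exact (Tame.const 0 : Tame (fun _ : Cfg n => (0 : ℝ)))
  · exact Tame.const_mul (1 / w) ((Tame.fen (n := n) β).sub (Tame.const a))

theorem tame_stepFn (β a w : ℝ) : Tame (stepFn (n := n) β a w) :=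
  tame_sm (tame_stepH β a w) true

theorem stepFn_mem (β a w : ℝ) (g : Cfg n) : stepFn β a w g ∈ Set.Icc (0 : ℝ) 1 :=
  ⟨sm_nonneg _ _ _, sm_le_one _ _ _⟩

theorem tame_windowFn (β a w : ℝ) : Tame (windowFn (n := n) β a w) :=
  (tame_stepFn β a w).mul ((Tame.const 1).sub (tame_stepFn β a w))

theorem windowFn_nonneg (β a w : ℝ) (g : Cfg n) : 0 ≤ windowFn β a w g :=
  mul_nonneg (stepFn_mem β a w g).1 (sub_nonneg.2 (stepFn_mem β a w g).2)

theorem windowFn_le (β a w : ℝ) (g : Cfg n) : windowFn β a w g ≤ 1 / 4 := by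
  unfold windowFn
  nlinarith [sq_nonneg (stepFn β a w g - 1 / 2)]

/-- The window is not small near `a`. -/
theorem windowFn_ge (β a : ℝ) {w : ℝ} (hw : 0 < w) (g : Cfg n) (h : |Fen β g - a| ≤ w) :
    1 / 16 ≤ windowFn β a w g := by
  obtain ⟨x, hx⟩ : ∃ x, x = Real.exp (1 / w * (Fen β g - a)) := ⟨_, rfl⟩
  have h1 := abs_le.1 h
  have hu : 1 / w * (Fen β g - a) ∈ Set.Icc (-1 : ℝ) 1 := by
    rw [Set.mem_Icc, one_div_mul_eq_div, le_div_iff₀ hw, div_le_iff₀ hw]
    constructor <;> linarith
  have hx3 : x ≤ 3 := by
    rw [hx]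
    exact (Real.exp_le_exp.2 hu.2).trans (Real.exp_one_lt_three.le)
  have hx0 : 1 / 3 ≤ x := by
    have h2 : Real.exp (-1) ≤ x := hx ▸ Real.exp_le_exp.2 hu.1
    have h3 : 1 / 3 ≤ Real.exp (-1) := by
      rw [Real.exp_neg, one_div]
      exact inv_anti₀ (Real.exp_pos 1) Real.exp_one_lt_three.le
    linarith
  have e : stepFn β a w g = x / (x + 1) := by
    simp [stepFn, sm, stepH, hx, Real.exp_zero]
  rw [windowFn, e]
  have hpos : 0 < x + 1 := by linarith
  rw [one_sub_div hpos.ne', div_mul_div_comm, le_div_iff₀ (by positivity)]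
  nlinarith

/-- The derivative of the smoothed step. -/
theorem Dab_stepFn (β a w : ℝ) (p : Fin n × Fin n) (g : Cfg n) :
    Dab p (stepFn β a w) g = windowFn β a w g * (1 / w * Dab p (Fen β) g) := by
  have hT : stepH (n := n) β a w true = fun g => 1 / w * (Fen β g - a) := by
    funext g; simp [stepH]
  have hF : stepH (n := n) β a w false = fun _ => 0 := by funext g; simp [stepH]
  have hpd : ∀ e : Edge n, pd e (stepH β a w true) g = 1 / w * pd e (Fen β) g := by
    intro e
    rw [hT, pd_const_mul e _ ((Tame.fen β).sub (Tame.const a)), pd_sub e (Tame.fen β) (Tame.const a),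
      pd_const]
    simp
  unfold windowFn stepFn
  simp only [Dab, pd_sm (tame_stepH β a w), Fintype.sum_bool, hpd, hF, pd_const, mul_zero,
    add_zero]
  ring

/-- The divergence identity against the smoothed step. -/
theorem mean_psi_step (hn : n ≠ 0) (β a w : ℝ) (m : ℕ) :
    mean (fun g : Cfg n => psi m g * stepFn β a w g) =
      1 / w * mean (fun g : Cfg n => windowFn β a w g *
        (β * ∑ s : Fin n → Bool, gibbs β g s * bform m g s s - β * trU m g)) := by
  classical
  have hn' : (n : ℝ) ≠ 0 := by exact_mod_cast hn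
  rw [mean_psi_mul hn m (tame_stepFn β a w)]
  have hfen : ∀ g : Cfg n, ∑ a, ∑ b, uEnt m a b g * Dab (a, b) (Fen β) g =
      n * (β * ∑ s : Fin n → Bool, gibbs β g s * bform m g s s - β * trU m g) := by
    intro g
    have hab : ∀ a b : Fin n, uEnt m a b g * Dab (a, b) (Fen β) g =
        β * ∑ s : Fin n → Bool, gibbs β g s * (spin (s a) * uEnt m a b g * spin (s b)) -
          if a = b then β * uEnt m a a g else 0 := by
      intro a b
      by_cases h : a = b
      · subst h
        have hb : ∀ s : Fin n → Bool, spin (s a) * uEnt m a a g * spin (s a) = uEnt m a a g :=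
          fun s => by
            have := bond_diag a s
            rw [bond] at this
            linear_combination uEnt m a a g * this
        simp [Dab_Fen_diag, hb, ← sum_mul, gibbs_sum]
      · rw [Dab_Fen β h, if_neg h, sub_zero, mul_left_comm, mul_sum, mul_sum]
        rw [mul_sum]
        exact sum_congr rfl fun s _ => by rw [bond]; ring
    simp only [hab, sum_sub_distrib, sum_ite_eq, mem_univ, if_true, ← mul_sum]
    rw [diag_sum hn, mul_sub, mul_left_comm (n : ℝ) β (trU m g)]
    congr 1
    rw [sum_comm_cycle, mul_left_comm]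
    congr 1
    rw [mul_sum]
    refine sum_congr rfl fun s _ => ?_
    simp only [bform, ← mul_sum]
    field_simp
  simp only [mean, ← integral_const_mul]
  refine integral_congr_ae (Filter.Eventually.of_forall fun g => ?_)
  have e : ∑ c, ∑ d, uEnt m c d g * Dab (c, d) (stepFn β a w) g =
      windowFn β a w g * (1 / w) * ∑ c, ∑ d, uEnt m c d g * Dab (c, d) (Fen β) g := by
    simp only [mul_sum]
    exact sum_congr rfl fun c _ => sum_congr rfl fun d _ => by rw [Dab_stepFn]; ring
  simp only [e, hfen]
  field_simp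

end Vale.Agent.P146.Div.Spread
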